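import Vale.Agent.P287T.Zg.Dg

/-!
# The functor of a dg functor is exact
-/

open CategoryTheory Limits Pretriangulated MvPolynomial CochainComplex HomComplex

universe w v u

namespace Vale.Agent.P287T.Zg.DG

open Vale.Agent.P287T.Cy Vale.Agent.P287T.G3

variable {W : S6} {𝒜 : Type u} [Category.{v} 𝒜] [Preadditive 𝒜] [Linear ℂ 𝒜] (D : DG W 𝒜)
  {E F G : HM W}

theorem t_neg {g : Matrix F.ι E.ι S6} {k l : ℤ} (hg : g ∈ MM E.pz F.pz (3 * (l - k))) :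
    D.t E F (-g) k l = -D.t E F g k l := by
  rw [← neg_one_smul ℂ g, D.t_smul _ hg, neg_one_smul]

/-- a closed isomorphism of degree one -/
noncomputable def shIso' (s : Matrix E.ι F.ι S6) (s' : Matrix F.ι E.ι S6)
    (h : ∀ k : ℤ, s ∈ MM F.pz E.pz (3 * (k + 1 - k)))
    (h' : ∀ k : ℤ, s' ∈ MM E.pz F.pz (3 * (k - (k + 1)))) (e : s' * s = 1) (e' : s * s' = 1)
    (cl : E.dz * s - (-1 : ℤ) • (s * F.dz) = 0) : D.T F ≅ (D.T E)⟦(1 : ℤ)⟧ :=
  HomologicalComplex.Hom.isoOfComponents (fun k =>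
    { hom := -D.t F E s k (k + 1)
      inv := -D.t E F s' (k + 1) k
      hom_inv_id := (Preadditive.neg_comp_neg _ _).trans ((D.mul _ _ _ _ _ k (k + 1) k (h k)
        (h' k)).symm.trans (by rw [e, D.one]))
      inv_hom_id := (Preadditive.neg_comp_neg _ _).trans ((D.mul _ _ _ _ _ (k + 1) k (k + 1)
        (h' k) (h k)).symm.trans (by rw [e', D.one]; rfl)) }) (by
    intro k l hk
    obtain rfl : k + 1 = l := hk
    have := D.dif F E s k (k + 1) (h k)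
    rw [add_sub_cancel_left, show G3.sg 1 = -1 from rfl, cl, D.t_zero, neg_smul, one_smul,
      sub_neg_eq_add] at this
    change (-D.t F E s k (k + 1)) ≫ ((1 : ℤ).negOnePow • (D.T E).d (k + 1) (k + 1 + 1)) =
      _ ≫ (-D.t F E s (k + 1) (k + 1 + 1))
    rw [Int.negOnePow_one, Units.neg_smul, one_smul, Preadditive.neg_comp_neg, Preadditive.comp_neg]
    exact eq_neg_of_add_eq_zero_left this.symm)

/-- the identity matrix from the shift -/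
noncomputable def s₁ (E : HM W) : Matrix E.ι (MF.ι (E⟦(1 : ℤ)⟧)) S6 := (1 : Matrix E.ι E.ι S6)

theorem s₁_mem (E : HM W) (k : ℤ) : s₁ E ∈ MM (MF.pz (E⟦(1 : ℤ)⟧)) E.pz (3 * (k + 1 - k)) :=
  MM_one (ι := E.ι) fun i => by rw [shift_pz]; ring

/-- compatibility with the shift -/
noncomputable def shIso (E : HM W) : D.T (E⟦(1 : ℤ)⟧) ≅ (D.T E)⟦(1 : ℤ)⟧ :=
  D.shIso' (s₁ E) (1 : Matrix E.ι E.ι S6) (s₁_mem E)
    (fun _ => MM_one (ι := E.ι) fun i => (shift_pz 1 E i).trans (by ring))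
    (Matrix.one_mul (1 : Matrix E.ι E.ι S6)) (Matrix.one_mul (1 : Matrix E.ι E.ι S6)) (by
      change E.dz * (1 : Matrix E.ι E.ι S6) -
        (-1 : ℤ) • ((1 : Matrix E.ι E.ι S6) * (-1 : ℤ) • E.dz) = 0
      rw [Matrix.mul_one, Matrix.one_mul, smul_smul, neg_mul_neg, one_mul, one_smul, sub_self])

theorem shIso_f (E : HM W) (k : ℤ) : (D.shIso E).hom.f k = -D.t _ E (s₁ E) k (k + 1) := rfl

theorem sh_mem {f : Matrix F.ι E.ι S6} (hf : f ∈ ZZ E.pz E.dz F.pz F.dz 0) :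
    f ∈ ZZ (MF.pz (E⟦(1 : ℤ)⟧)) (MF.dz (E⟦(1 : ℤ)⟧)) (MF.pz (F⟦(1 : ℤ)⟧)) (MF.dz (F⟦(1 : ℤ)⟧)) 0 :=
  (mem_Z0_iff (E⟦(1 : ℤ)⟧) (F⟦(1 : ℤ)⟧) f).1 (tw_mem_Z0 _ ((mem_Z0_iff E F f).2 hf))

theorem sh_mkR {f : Matrix F.ι E.ι S6} (hf : f ∈ ZZ E.pz E.dz F.pz F.dz 0) :
    (mkR f hf)⟦(1 : ℤ)⟧' = mkR (E := E⟦(1 : ℤ)⟧) (F := F⟦(1 : ℤ)⟧) f (sh_mem hf) := rfl

theorem shIso_nat {f : Matrix F.ι E.ι S6} (hf : f ∈ ZZ E.pz E.dz F.pz F.dz 0) :
    D.hom (E := E⟦(1 : ℤ)⟧) (F := F⟦(1 : ℤ)⟧) f (sh_mem hf) ≫ (D.shIso F).hom =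
      (D.shIso E).hom ≫ (D.hom f hf)⟦(1 : ℤ)⟧' := by
  ext k
  change D.t (E⟦(1 : ℤ)⟧) (F⟦(1 : ℤ)⟧) f k k ≫ (-D.t _ F (s₁ F) k (k + 1)) =
    (-D.t _ E (s₁ E) k (k + 1)) ≫ D.t E F f (k + 1) (k + 1)
  rw [Preadditive.comp_neg, Preadditive.neg_comp,
    ← D.mul _ _ _ _ _ k k (k + 1) (MM_cast (sh_mem hf).1 (by ring)) (s₁_mem F k),
    ← D.mul _ _ _ _ _ k (k + 1) (k + 1) (s₁_mem E k) (MM_cast hf.1 (by ring))]
  exact congrArg (fun g => -D.t (E⟦(1 : ℤ)⟧) F g k (k + 1))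
    ((Matrix.one_mul f).trans (Matrix.mul_one f).symm)

omit [Linear ℂ 𝒜] in
theorem sq_aux {A B K L : CochainComplex 𝒜 ℤ} {a : A ⟶ B} {b : B ⟶ L⟦(1 : ℤ)⟧}
    {c : A ⟶ K⟦(1 : ℤ)⟧} {d : K ⟶ L} (h : a ≫ b = c ≫ d⟦(1 : ℤ)⟧') :
    (q 𝒜).map a ≫ (q 𝒜).map b ≫ ((q 𝒜).commShiftIso (1 : ℤ)).hom.app L =
      ((q 𝒜).map c ≫ ((q 𝒜).commShiftIso (1 : ℤ)).hom.app K) ≫ ((q 𝒜).map d)⟦(1 : ℤ)⟧' := by
  rw [← Functor.map_comp_assoc, h, Functor.map_comp_assoc, Category.assoc]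
  exact congrArg ((q 𝒜).map c ≫ ·) (((q 𝒜).commShiftIso (1 : ℤ)).hom.naturality d)

/-- the commutation with the shift by one -/
noncomputable def fnSh : CategoryTheory.shiftFunctor (HM W) (1 : ℤ) ⋙ D.fn ≅
    D.fn ⋙ CategoryTheory.shiftFunctor _ (1 : ℤ) :=
  NatIso.ofComponents (fun E => (q 𝒜).mapIso (D.shIso E) ≪≫
    ((q 𝒜).commShiftIso (1 : ℤ)).app (D.T E)) fun {E F} x => by
    obtain ⟨f, hf, rfl⟩ := exists_mkR x
    have e : D.fn.map ((mkR f hf)⟦(1 : ℤ)⟧') = _ :=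
      D.fn_map (E := E⟦(1 : ℤ)⟧) (F := F⟦(1 : ℤ)⟧) f (sh_mem hf)
    exact (congrArg (· ≫ _) e).trans ((sq_aux (D.shIso_nat hf)).trans
      (congrArg (fun y => _ ≫ y⟦(1 : ℤ)⟧') (D.fn_map f hf).symm))

noncomputable instance fnCS : D.fn.CommShift ℤ := (exists_commShift D.fn D.fnSh).choose

theorem fn_cs : D.fn.commShiftIso (1 : ℤ) = D.fnSh := (exists_commShift D.fn D.fnSh).choose_spec

section cone

variable {f : Matrix F.ι E.ι S6} (hf : f ∈ ZZ E.pz E.dz F.pz F.dz 0)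

/-- the first inclusion -/
noncomputable def iF : Matrix (coneR hf).ι F.ι S6 := (Matrix.fromRows 1 0 : Matrix (F.ι ⊕ E.ι) F.ι S6)

/-- the second inclusion -/
noncomputable def iE : Matrix (coneR hf).ι E.ι S6 := (Matrix.fromRows 0 1 : Matrix (F.ι ⊕ E.ι) E.ι S6)

/-- the first projection -/
noncomputable def pF : Matrix F.ι (coneR hf).ι S6 := (Matrix.fromCols 1 0 : Matrix F.ι (F.ι ⊕ E.ι) S6)

/-- the second projection -/
noncomputable def pE : Matrix E.ι (coneR hf).ι S6 := (Matrix.fromCols 0 1 : Matrix E.ι (F.ι ⊕ E.ι) S6)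

theorem iF_mem (k : ℤ) : iF hf ∈ MM F.pz (coneR hf).pz (3 * (k - k)) :=
  MM_cast (coneR_inl hf).1 (by ring)

theorem iE_mem {j : ℤ} (h : j = -3) : iE hf ∈ MM E.pz (coneR hf).pz j := by
  rintro (i | i) l
  · exact isWeightedHomogeneous_zero _ _ _
  · rw [coneR_pz]
    exact MM_one (a := j) (p := E.pz) (q := fun i => E.pz i - 3) (fun i => by omega) i l

theorem pF_mem (k : ℤ) : pF hf ∈ MM (coneR hf).pz F.pz (3 * (k - k)) := by
  rintro i (l | l)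
  · exact MM_one (a := 3 * (k - k)) (p := F.pz) (q := F.pz) (fun i => by ring) i l
  · exact isWeightedHomogeneous_zero _ _ _

theorem pE_mem (k : ℤ) : pE hf ∈ MM (coneR hf).pz E.pz (3 * (k + 1 - k)) := by
  rintro i (l | l)
  · exact isWeightedHomogeneous_zero _ _ _
  · rw [coneR_pz]
    exact MM_one (a := 3 * (k + 1 - k)) (p := fun i => E.pz i - 3) (q := E.pz)
      (fun i => by omega) i l

theorem pF_iF : pF hf * iF hf = 1 :=
  (Matrix.fromCols_mul_fromRows (1 : Matrix F.ι F.ι S6) (0 : Matrix F.ι E.ι S6) 1 0).trans (by simp)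

theorem pF_iE : pF hf * iE hf = 0 :=
  (Matrix.fromCols_mul_fromRows (1 : Matrix F.ι F.ι S6) (0 : Matrix F.ι E.ι S6) 0 1).trans (by simp)

theorem pE_iF : pE hf * iF hf = 0 :=
  (Matrix.fromCols_mul_fromRows (0 : Matrix E.ι F.ι S6) (1 : Matrix E.ι E.ι S6) 1 0).trans (by simp)

theorem pE_iE : pE hf * iE hf = 1 :=
  (Matrix.fromCols_mul_fromRows (0 : Matrix E.ι F.ι S6) (1 : Matrix E.ι E.ι S6) 0 1).trans (by simp)

theorem sum_aux {ι κ : Type} [Fintype ι] [Fintype κ] [DecidableEq ι] [DecidableEq κ] :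
    Matrix.fromRows (0 : Matrix ι κ S6) (1 : Matrix κ κ S6) *
      Matrix.fromCols (0 : Matrix κ ι S6) (1 : Matrix κ κ S6) +
    Matrix.fromRows (1 : Matrix ι ι S6) (0 : Matrix κ ι S6) *
      Matrix.fromCols (1 : Matrix ι ι S6) (0 : Matrix ι κ S6) = 1 := by
  rw [Matrix.fromRows_mul_fromCols, Matrix.fromRows_mul_fromCols, Matrix.fromBlocks_add]
  simp

theorem sum_one : iE hf * pE hf + iF hf * pF hf = 1 := sum_aux (ι := F.ι) (κ := E.ι)

theorem iF_cl : iF hf ∈ ZZ F.pz F.dz (coneR hf).pz (coneR hf).dz 0 := coneR_inl hf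

theorem d_iE : (coneR hf).dz * iE hf - (-1 : ℤ) • (iE hf * E.dz) = iF hf * f := by
  change Matrix.fromBlocks F.dz f 0 (-E.dz) * (Matrix.fromRows 0 1 : Matrix (F.ι ⊕ E.ι) E.ι S6) -
    (-1 : ℤ) • ((Matrix.fromRows 0 1 : Matrix (F.ι ⊕ E.ι) E.ι S6) * E.dz) =
    (Matrix.fromRows 1 0 : Matrix (F.ι ⊕ E.ι) F.ι S6) * f
  rw [Matrix.fromBlocks_mul_fromRows, Matrix.fromRows_mul, Matrix.fromRows_mul]
  ext (i | i) l <;> simp

variable [HasBinaryBiproducts 𝒜]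

/-- comparison of the cones -/
noncomputable def coneHom : mappingCone (D.hom f hf) ⟶ D.T (coneR hf) :=
  mappingCone.desc _ (D.co E _ (iE hf) (-1)) (D.hom (iF hf) (iF_cl hf))
    (by rw [D.δ_co (neg_add_cancel 1) (iE_mem hf rfl), ← D.hom_mul, ofHom_hom]
        exact congrArg (D.co E _ · 0) (d_iE hf))

theorem inl_coneHom (k : ℤ) : (mappingCone.inl (D.hom f hf)).v (k + 1) k (by ring) ≫
    (D.coneHom hf).f k = D.t E _ (iE hf) (k + 1) k := mappingCone.inl_v_desc_f _ _ _ _ _ _ _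

theorem inr_coneHom (k : ℤ) : (mappingCone.inr (D.hom f hf)).f k ≫
    (D.coneHom hf).f k = D.t F _ (iF hf) k k := mappingCone.inr_f_desc_f _ _ _ _ _

theorem isIso_coneHom : IsIso (D.coneHom hf) := by
  suffices ∀ k, IsIso ((D.coneHom hf).f k) from HomologicalComplex.Hom.isIso_of_components _
  intro k
  have a := iE_mem hf (j := 3 * (k - (k + 1))) (by ring)
  refine ⟨D.t _ E (pE hf) k (k + 1) ≫ (mappingCone.inl (D.hom f hf)).v (k + 1) k (by ring) +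
    D.t _ F (pF hf) k k ≫ (mappingCone.inr (D.hom f hf)).f k, ?_, ?_⟩
  · refine mappingCone.ext_from _ (k + 1) k rfl ?_ ?_
    · rw [← Category.assoc, inl_coneHom, Preadditive.comp_add, ← Category.assoc, ← Category.assoc,
        ← D.mul _ _ _ _ _ _ _ _ a (pE_mem hf k), ← D.mul _ _ _ _ _ _ _ _ a (pF_mem hf k), pE_iE,
        pF_iE, D.one, D.t_zero, zero_comp, add_zero, Category.id_comp, Category.comp_id]
    · rw [← Category.assoc, inr_coneHom, Preadditive.comp_add, ← Category.assoc, ← Category.assoc,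
        ← D.mul _ _ _ _ _ _ _ _ (iF_mem hf k) (pE_mem hf k),
        ← D.mul _ _ _ _ _ _ _ _ (iF_mem hf k) (pF_mem hf k), pE_iF,
        pF_iF, D.one, D.t_zero, zero_comp, zero_add, Category.id_comp, Category.comp_id]
  · rw [Preadditive.add_comp, Category.assoc, Category.assoc, inl_coneHom, inr_coneHom,
      ← D.mul _ _ _ _ _ _ _ _ (pE_mem hf k) a, ← D.mul _ _ _ _ _ _ _ _ (pF_mem hf k) (iF_mem hf k),
      ← D.t_add (MM_mul a (pE_mem hf k) (by ring)) (MM_mul (iF_mem hf k) (pF_mem hf k) (by ring)),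
      sum_one, D.one]

theorem coneHom_δ : D.coneHom hf ≫ D.hom (E := coneR hf) (F := E⟦(1 : ℤ)⟧) _ (coneR_snd hf) ≫
    (D.shIso E).hom = (mappingCone.triangle (D.hom f hf)).mor₃ := by
  ext k
  have b : pE hf ∈ MM (coneR hf).pz (MF.pz (E⟦(1 : ℤ)⟧)) (3 * (k - k)) :=
    MM_cast (coneR_snd hf).1 (by ring)
  have e : (D.hom (E := coneR hf) (F := E⟦(1 : ℤ)⟧) _ (coneR_snd hf) ≫ (D.shIso E).hom).f k =
      -D.t _ E (pE hf) k (k + 1) := by
    change D.t _ (E⟦(1 : ℤ)⟧) (pE hf) k k ≫ (-D.t _ E (s₁ E) k (k + 1)) = _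
    rw [Preadditive.comp_neg, ← D.mul _ _ _ _ _ _ _ _ b (s₁_mem E k)]
    exact congrArg (fun g => -D.t _ E g k (k + 1)) (Matrix.one_mul (pE hf))
  refine (congrArg ((D.coneHom hf).f k ≫ ·) e).trans ?_
  refine mappingCone.ext_from _ (k + 1) k rfl (Eq.trans ?_
    (mappingCone.inl_v_triangle_mor₃_f _ _ _ _).symm) (Eq.trans ?_
    (mappingCone.inr_f_triangle_mor₃_f _ _).symm)
  · change _ ≫ (D.coneHom hf).f k ≫ (-D.t _ E (pE hf) k (k + 1)) = -𝟙 ((D.T E).X (k + 1))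
    rw [← Category.assoc, inl_coneHom, Preadditive.comp_neg,
      ← D.mul _ _ _ _ _ _ _ _ (iE_mem hf (by ring)) (pE_mem hf k), pE_iE, D.one]
  · change _ ≫ (D.coneHom hf).f k ≫ (-D.t _ E (pE hf) k (k + 1)) = (0 : _ ⟶ (D.T E).X (k + 1))
    rw [← Category.assoc, inr_coneHom, Preadditive.comp_neg,
      ← D.mul _ _ _ _ _ _ _ _ (iF_mem hf k) (pE_mem hf k), pE_iF, D.t_zero, neg_zero]

theorem inr_cone : mappingCone.inr (D.hom f hf) ≫ D.coneHom hf = D.hom (iF hf) (iF_cl hf) := by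
  ext k
  exact D.inr_coneHom hf k

omit [Linear ℂ 𝒜] [HasBinaryBiproducts 𝒜] in
theorem tr_aux {A B C K : CochainComplex 𝒜 ℤ} (a : A ⟶ B) (b : B ⟶ C) (c : C ⟶ K⟦(1 : ℤ)⟧) :
    ((q 𝒜).map (a ≫ b ≫ c) ≫ ((q 𝒜).commShiftIso (1 : ℤ)).hom.app K) ≫
      (𝟙 ((q 𝒜).obj K))⟦(1 : ℤ)⟧' = (q 𝒜).map a ≫ (q 𝒜).map b ≫ (q 𝒜).map c ≫
        ((q 𝒜).commShiftIso (1 : ℤ)).hom.app K := by
  rw [CategoryTheory.Functor.map_id, Functor.map_comp, Functor.map_comp, Category.assoc,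
    Category.assoc, Category.assoc]
  exact congrArg (fun y => _ ≫ _ ≫ _ ≫ y) (Category.comp_id _)

theorem std_tri [HasZeroObject 𝒜] : D.fn.mapTriangle.obj (Triangle.mk (mkR f hf)
    (mkR (E := F) (F := coneR hf) _ (coneR_inl hf))
    (mkR (E := coneR hf) (F := E⟦(1 : ℤ)⟧) _ (coneR_snd hf))) ∈ distTriang _ := by
  have := D.isIso_coneHom hf
  refine isomorphic_distinguished _
    (HomotopyCategory.mappingCone_triangleh_distinguished (D.hom f hf)) _ (Iso.symm ?_)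
  refine Triangle.isoMk _ _ (Iso.refl _) (Iso.refl _) ((q 𝒜).mapIso (@asIso _ _ _ _ _ this))
    ?_ ?_ ?_
  · exact (Category.comp_id _).trans ((D.fn_map f hf).symm.trans (Category.id_comp _).symm)
  · refine ((q 𝒜).map_comp _ _).symm.trans (Eq.trans ?_ (Category.id_comp _).symm)
    exact (congrArg (q 𝒜).map (D.inr_cone hf)).trans
      (D.fn_map (E := F) (F := coneR hf) _ (coneR_inl hf)).symm
  · refine (congrArg (fun y => ((q 𝒜).map y ≫ ((q 𝒜).commShiftIso (1 : ℤ)).hom.app (D.T E)) ≫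
      (𝟙 ((q 𝒜).obj (D.T E)))⟦(1 : ℤ)⟧') (D.coneHom_δ hf).symm).trans ((tr_aux _ _ _).trans ?_)
    exact congrArg₂ (fun y z => (q 𝒜).map (D.coneHom hf) ≫ y ≫ z)
      (D.fn_map (E := coneR hf) (F := E⟦(1 : ℤ)⟧) _ (coneR_snd hf)).symm
      (congrArg (fun e => e.hom.app E) D.fn_cs.symm)

end cone

instance [HasZeroObject 𝒜] [HasBinaryBiproducts 𝒜] : D.fn.IsTriangulated where
  map_distinguished := by
    rintro T ⟨E, F, f, hf, ⟨e⟩⟩
    exact isomorphic_distinguished _ (D.std_tri ((mem_Z0_iff E F f).1 hf)) _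
      (D.fn.mapTriangle.mapIso e)

end Vale.Agent.P287T.Zg.DG

namespace Vale.Agent.P287T.Zg.DG

open Vale.Agent.P287T.Cy Vale.Agent.P287T.G3

variable {W : S6} {𝒜 : Type u} [Category.{v} 𝒜] [Abelian 𝒜] [Linear ℂ 𝒜] [HasDerivedCategory.{w} 𝒜]
  (D : DG W 𝒜) {E F : HM W}

/-- the functor to the derived category -/
noncomputable def fd : HM W ⥤ DerivedCategory 𝒜 := D.fn ⋙ DerivedCategory.Qh

noncomputable instance : D.fd.CommShift ℤ := inferInstanceAs ((D.fn ⋙ DerivedCategory.Qh).CommShift ℤ)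

instance : D.fd.IsTriangulated := inferInstanceAs (D.fn ⋙ DerivedCategory.Qh).IsTriangulated

instance : D.fd.Additive := inferInstanceAs (D.fn ⋙ DerivedCategory.Qh).Additive

instance : D.fd.Linear ℂ := inferInstanceAs ((D.fn ⋙ DerivedCategory.Qh).Linear ℂ)

theorem fd_obj (E : HM W) : D.fd.obj E = DerivedCategory.Q.obj (D.T E) := rfl

theorem fd_map (f : Matrix F.ι E.ι S6) (hf : f ∈ ZZ E.pz E.dz F.pz F.dz 0) :
    D.fd.map (mkR f hf) = DerivedCategory.Q.map (D.hom f hf) :=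
  congrArg DerivedCategory.Qh.map (D.fn_map f hf)

end Vale.Agent.P287T.Zg.DG
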