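import Vale.Agent.P287T.Zg.Orl
import Vale.Agent.P287T.Exit0
import Vale.Agent.P287Z.S2B
import Mathlib.CategoryTheory.Triangulated.Adjunction

/-!
# From an equivalence `HM W ≃ D^b(C)` to the equivalence `D^b(C) ≃ Ku(X)`
-/

open CategoryTheory Limits Pretriangulated MvPolynomial

universe w w' v u

namespace Vale.Agent.P287T.Zg

open Vale.Agent.P287T.G3 Vale.Agent.P287Z

section

variable {H : Type*} [Category* H] [Preadditive H] [Linear ℂ H] [HasZeroObject H] [HasShift H ℤ]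
  [∀ n : ℤ, (shiftFunctor H n).Additive] [Pretriangulated H]
  {C D : Type u} [Category.{v} C] [Abelian C] [Linear ℂ C] [HasDerivedCategory.{w} C]
  [Category.{v} D] [Abelian D] [Linear ℂ D] [HasDerivedCategory.{w'} D]

omit [HasZeroObject H] [HasShift H ℤ] [∀ n : ℤ, (shiftFunctor H n).Additive] [Pretriangulated H] in
theorem lift_linear (Ψ : H ⥤ DerivedCategory C) [Ψ.Linear ℂ]
    (h : ∀ E, (DerivedCategory.TStructure.t (C := C)).bounded (Ψ.obj E)) :
    ((DerivedCategory.TStructure.t (C := C)).bounded.lift Ψ h).Linear ℂ where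
  map_smul f c := ObjectProperty.hom_ext _ (Ψ.map_smul c f)

/-- two exact embeddings of one triangulated category -/
theorem zig (Ψ : H ⥤ DerivedCategory C) [Ψ.CommShift ℤ] [Ψ.IsTriangulated] [Ψ.Linear ℂ] [Ψ.Full]
    [Ψ.Faithful] (hΨ : ∀ Y, Ψ.essImage Y ↔ (DerivedCategory.TStructure.t (C := C)).bounded Y)
    (O : H ⥤ DerivedCategory D) [O.CommShift ℤ] [O.IsTriangulated] [O.Linear ℂ] [O.Full]
    [O.Faithful] (hO : ∀ E, (DerivedCategory.TStructure.t (C := D)).bounded (O.obj E))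
    (L : Fin 3 → D) (hL : ∀ Y : Stm.Db D, O.essImage Y.obj ↔ ∀ i, Stm.Orth (L i) Y) :
    Stm.Eqv C D L := by
  have hb := fun E => (hΨ _).1 (Ψ.obj_mem_essImage E)
  let Ψ' : H ⥤ Stm.Db C := (DerivedCategory.TStructure.t (C := C)).bounded.lift Ψ hb
  let O' : H ⥤ Stm.Db D := (DerivedCategory.TStructure.t (C := D)).bounded.lift O hO
  have : Ψ'.EssSurj := ⟨fun Y => by
    obtain ⟨E, ⟨e⟩⟩ := (hΨ Y.obj).2 Y.property
    exact ⟨E, ⟨ObjectProperty.isoMk _ e⟩⟩⟩
  have : Ψ'.IsEquivalence := {}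
  let e := Ψ'.asEquivalence
  let _ : e.functor.CommShift ℤ := (inferInstance : Ψ'.CommShift ℤ)
  have t : e.functor.IsTriangulated := ObjectProperty.isTriangulated_lift _ Ψ hb
  have : e.functor.Linear ℂ := lift_linear Ψ hb
  have : O'.Linear ℂ := lift_linear O hO
  have : O'.IsTriangulated := ObjectProperty.isTriangulated_lift _ O hO
  let _ := e.commShiftInverse ℤ
  have := e.commShift_of_functor ℤ
  have := Equivalence.IsTriangulated.mk' e t
  refine ⟨e.inverse ⋙ O', inferInstance, inferInstance, inferInstance, inferInstance, inferInstance,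
    fun Y => Iff.trans ⟨?_, ?_⟩ (hL Y)⟩
  · rintro ⟨X, ⟨i⟩⟩
    exact ⟨_, ⟨(ObjectProperty.ι _).mapIso i⟩⟩
  · rintro ⟨E, ⟨i⟩⟩
    exact ⟨e.functor.obj E, ⟨O'.mapIso (e.unitIso.app E).symm ≪≫ ObjectProperty.isoMk _ i⟩⟩

end

/-- **the last step** -/
theorem kuEqv (F : MvPolynomial (Fin 6) ℂ) [Fact (F.IsHomogeneous 3)] (h0 : F ≠ 0) {C : Type 1}
    [Category.{0} C] [Abelian C] [Linear ℂ C] [HasDerivedCategory.{w} C]
    [HasDerivedCategory.{w'} (P294Z.Coh (PI (Ideal.span {F})))] (Ψ : HM F ⥤ DerivedCategory C)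
    [Ψ.CommShift ℤ] [Ψ.IsTriangulated] [Ψ.Linear ℂ] [Ψ.Full] [Ψ.Faithful]
    (hΨ : ∀ Y, Ψ.essImage Y ↔ (DerivedCategory.TStructure.t (C := C)).bounded Y)
    (L : Fin 3 → P294Z.Coh (PI (Ideal.span {F}))) (hL : Stm.Tw (Ideal.span {F}) L) :
    Stm.Eqv C (P294Z.Coh (PI (Ideal.span {F}))) L := by
  have := orl_full h0
  have := orl_faithful h0
  refine zig Ψ hΨ (orl F) (orl_bdd h0) L fun Y => ⟨?_, fun h => orl_ess h0 Y (S2.ku_of _ hL h)⟩
  rintro ⟨E, ⟨e⟩⟩ i k f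
  obtain ⟨j⟩ := S2.iso_Oc _ (hL i)
  exact zero_of_epi_comp ((DerivedCategory.singleFunctor _ 0).mapIso j).inv
    (orth_iso e.symm (orl_ku h0 E (i : ℕ) (by omega) (by omega) k) _)

end Vale.Agent.P287T.Zg
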