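import Vale.Agent.P287T.Stm
import Mathlib.CategoryTheory.Triangulated.Adjunction

/-!
# The equivalence from two exact functors with the same source
-/

open CategoryTheory Limits

universe w w' v u

namespace Vale.Agent.P287T.Zg

theorem eqv_abs {H : Type*} [Category* H] [Preadditive H] [Linear ℂ H] [HasZeroObject H]
    [HasShift H ℤ] [∀ n : ℤ, (shiftFunctor H n).Additive] [Pretriangulated H]
    {C D : Type u} [Category.{v} C] [Abelian C] [Linear ℂ C] [HasDerivedCategory.{w} C]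
    [Category.{v} D] [Abelian D] [Linear ℂ D] [HasDerivedCategory.{w'} D]
    (Ψ : H ⥤ DerivedCategory C) [Ψ.CommShift ℤ] [Ψ.IsTriangulated] [Ψ.Linear ℂ] [Ψ.Full]
    [Ψ.Faithful] (hΨ : ∀ Y, Ψ.essImage Y ↔ (DerivedCategory.TStructure.t (C := C)).bounded Y)
    (Φ : H ⥤ DerivedCategory D) [Φ.CommShift ℤ] [Φ.IsTriangulated] [Φ.Linear ℂ] [Φ.Full]
    [Φ.Faithful] (hb : ∀ E, (DerivedCategory.TStructure.t (C := D)).bounded (Φ.obj E))
    (L : Fin 3 → D) (hΦ : ∀ E : Stm.Db D, Φ.essImage E.obj ↔ ∀ i, Stm.Orth (L i) E) :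
    Stm.Eqv C D L := by
  let Ψ' : H ⥤ Stm.Db C := ObjectProperty.lift _ Ψ fun E => (hΨ _).1 (Ψ.obj_mem_essImage E)
  let Φ' : H ⥤ Stm.Db D := ObjectProperty.lift _ Φ hb
  have : Ψ'.Linear ℂ := ⟨fun f c => ObjectProperty.hom_ext _ (Ψ.map_smul c f)⟩
  have : Φ'.Linear ℂ := ⟨fun f c => ObjectProperty.hom_ext _ (Φ.map_smul c f)⟩
  have : Ψ'.EssSurj := ⟨fun Y => by
    obtain ⟨E, ⟨e⟩⟩ := (hΨ _).2 Y.property
    exact ⟨E, ⟨ObjectProperty.isoMk _ e⟩⟩⟩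
  have : Ψ'.IsEquivalence := {}
  let e := Ψ'.asEquivalence
  let _ : e.functor.CommShift ℤ := (inferInstance : Ψ'.CommShift ℤ)
  have : e.functor.Linear ℂ := (inferInstance : Ψ'.Linear ℂ)
  let _ := e.commShiftInverse ℤ
  have := e.commShift_of_functor ℤ
  have := Equivalence.IsTriangulated.mk' e (inferInstance : Ψ'.IsTriangulated)
  refine ⟨e.inverse ⋙ Φ', inferInstance, inferInstance, inferInstance, inferInstance,
    inferInstance, fun E => Iff.trans ⟨?_, ?_⟩ (hΦ E)⟩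
  · rintro ⟨Y, ⟨a⟩⟩
    exact ⟨_, ⟨(ObjectProperty.ι _).mapIso a⟩⟩
  · rintro ⟨Y, ⟨a⟩⟩
    exact ⟨e.functor.obj Y, ⟨Φ'.mapIso (e.unitIso.app Y).symm ≪≫ ObjectProperty.isoMk _ a⟩⟩

end Vale.Agent.P287T.Zg
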