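import Mathlib.CategoryTheory.Shift.CommShift
import Mathlib.Algebra.Group.MinimalAxioms
import Mathlib.Algebra.Ring.Int.Defs
import Mathlib.Algebra.Group.TypeTags.Hom
import Mathlib.Algebra.Module.NatInt

/-!
# A commutation isomorphism with the shift by one extends to all shifts
-/

open CategoryTheory Functor

namespace Vale.Agent.P287T.Zg

variable {C D : Type*} [Category* C] [Category* D] [HasShift C ℤ] [HasShift D ℤ] (F : C ⥤ D)

/-- commutation isomorphisms with one shift -/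
structure Cm where
  a : ℤ
  e : shiftFunctor C a ⋙ F ≅ F ⋙ shiftFunctor D a

namespace Cm

variable {F}

theorem eq_of {a b c : ℤ} (h : a + b = c) (e₁ : shiftFunctor C a ⋙ F ≅ F ⋙ shiftFunctor D a)
    (e₂ : shiftFunctor C b ⋙ F ≅ F ⋙ shiftFunctor D b) :
    (⟨a + b, CommShift.isoAdd' rfl e₁ e₂⟩ : Cm F) = ⟨c, CommShift.isoAdd' h e₁ e₂⟩ := by
  subst h
  rfl

theorem exists_inv {a b : ℤ} (h : a + b = 0)
    (e : shiftFunctor C a ⋙ F ≅ F ⋙ shiftFunctor D a) :
    ∃ e' : shiftFunctor C b ⋙ F ≅ F ⋙ shiftFunctor D b,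
      CommShift.isoAdd' h e e' = CommShift.isoZero F ℤ := by
  let α : shiftFunctor C a ⋙ shiftFunctor C b ⋙ F ≅ shiftFunctor C a ⋙ F ⋙ shiftFunctor D b :=
    (isoWhiskerRight (shiftFunctorAdd' C _ _ _ h) F ≪≫ Functor.associator _ _ _).symm ≪≫
      CommShift.isoZero F ℤ ≪≫ ((Functor.associator _ _ _).symm ≪≫ isoWhiskerRight e _ ≪≫
      Functor.associator _ _ _ ≪≫ isoWhiskerLeft _ (shiftFunctorAdd' D _ _ _ h).symm).symm
  let w := (whiskeringLeft C C D).obj (shiftFunctor C a)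
  have : w.IsEquivalence := (shiftEquiv C a).congrLeft.isEquivalence_inverse
  have k : isoWhiskerLeft (shiftFunctor C a) (w.preimageIso α) = α :=
    Iso.ext (w.map_preimage α.hom)
  refine ⟨w.preimageIso α, ?_⟩
  rw [CommShift.isoAdd', k]
  simp only [α, ← Iso.trans_assoc, Iso.self_symm_id, Iso.refl_trans]
  simp only [Iso.trans_assoc, Iso.symm_self_id, Iso.trans_refl]

noncomputable instance : Mul (Cm F) := ⟨fun x y => ⟨x.a + y.a, CommShift.isoAdd' rfl x.e y.e⟩⟩

noncomputable instance : One (Cm F) := ⟨⟨0, CommShift.isoZero F ℤ⟩⟩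

noncomputable instance : Inv (Cm F) :=
  ⟨fun x => ⟨-x.a, (exists_inv (add_neg_cancel x.a) x.e).choose⟩⟩

noncomputable instance : Group (Cm F) := Group.ofRightAxioms
  (fun x y z => (eq_of (add_assoc x.a y.a z.a) _ _).trans (congrArg (Cm.mk _)
    (CommShift.isoAdd'_assoc x.e y.e z.e rfl rfl (add_assoc x.a y.a z.a))))
  (fun x => (eq_of (add_zero x.a) _ _).trans (congrArg (Cm.mk _) (CommShift.isoAdd'_isoZero x.e)))
  (fun x => (eq_of (add_neg_cancel x.a) _ _).trans (congrArg (Cm.mk _)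
    (exists_inv (add_neg_cancel x.a) x.e).choose_spec))

/-- the degree -/
noncomputable def deg : Cm F →* Multiplicative ℤ where
  toFun x := Multiplicative.ofAdd x.a
  map_one' := rfl
  map_mul' _ _ := rfl

theorem a_zpow (u : Cm F) (hu : u.a = 1) (n : ℤ) : (u ^ n).a = n := by
  have := map_zpow deg u n
  change Multiplicative.ofAdd (u ^ n).a = Multiplicative.ofAdd u.a ^ n at this
  rw [← ofAdd_zsmul, hu, smul_eq_mul, mul_one] at this
  exact Multiplicative.ofAdd.injective this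

theorem exists_e (x : Cm F) {n : ℤ} (h : x.a = n) :
    ∃ e : shiftFunctor C n ⋙ F ≅ F ⋙ shiftFunctor D n, x = ⟨n, e⟩ := by
  subst h
  exact ⟨x.e, rfl⟩

theorem inj {n : ℤ} {e e' : shiftFunctor C n ⋙ F ≅ F ⋙ shiftFunctor D n}
    (h : (⟨n, e⟩ : Cm F) = ⟨n, e'⟩) : e = e' := by
  injection h

end Cm

/-- **a commutation isomorphism with the shift by one extends to all shifts** -/
theorem exists_commShift (e : shiftFunctor C (1 : ℤ) ⋙ F ≅ F ⋙ shiftFunctor D (1 : ℤ)) :
    ∃ _ : F.CommShift ℤ, F.commShiftIso (1 : ℤ) = e := by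
  let u : Cm F := ⟨1, e⟩
  choose ε hε using fun n => Cm.exists_e (u ^ n) (Cm.a_zpow u rfl n)
  refine ⟨⟨ε, Cm.inj ((hε 0).symm.trans (zpow_zero u)), fun a b => Cm.inj ?_⟩,
    Cm.inj ((hε 1).symm.trans (zpow_one u))⟩
  rw [← hε, zpow_add, hε, hε]
  rfl

end Vale.Agent.P287T.Zg
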