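import Vale.Agent.P287T.G3.Br2
import Vale.Agent.P287T.Zg.Cs
import Mathlib.Algebra.Homology.DerivedCategory.Linear

/-!
# Strict functors from matrix factorizations to complexes

`DG W 𝒜` is a dg functor from the dg category of graded matrix factorizations of `W` to cochain
complexes in `𝒜`. It gives an exact linear functor on `HM W`.
-/

open CategoryTheory Limits Pretriangulated MvPolynomial CochainComplex HomComplex

universe v u v' u'

namespace Vale.Agent.P287T.Zg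

open Vale.Agent.P287T.Cy Vale.Agent.P287T.G3

/-- a dg functor: a matrix of degree `3 (l - k)` acts from degree `k` to degree `l` -/
structure DG (W : S6) (𝒜 : Type u) [Category.{v} 𝒜] [Preadditive 𝒜] [Linear ℂ 𝒜] where
  T : HM W → CochainComplex 𝒜 ℤ
  t : ∀ (E F : HM W), Matrix F.ι E.ι S6 → ∀ k l : ℤ, ((T E).X k ⟶ (T F).X l)
  lin : ∀ (E F : HM W) (g g' : Matrix F.ι E.ι S6) (c : ℂ) (k l : ℤ),
    g ∈ MM E.pz F.pz (3 * (l - k)) → g' ∈ MM E.pz F.pz (3 * (l - k)) →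
    t E F (c • g + g') k l = c • t E F g k l + t E F g' k l
  one : ∀ (E : HM W) (k : ℤ), t E E 1 k k = 𝟙 _
  mul : ∀ (E F G : HM W) (g : Matrix F.ι E.ι S6) (g' : Matrix G.ι F.ι S6) (k l r : ℤ),
    g ∈ MM E.pz F.pz (3 * (l - k)) → g' ∈ MM F.pz G.pz (3 * (r - l)) →
    t E G (g' * g) k r = t E F g k l ≫ t F G g' l r
  dif : ∀ (E F : HM W) (g : Matrix F.ι E.ι S6) (k l : ℤ), g ∈ MM E.pz F.pz (3 * (l - k)) →
    t E F (F.dz * g - G3.sg (l - k) • (g * E.dz)) k (l + 1) =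
      t E F g k l ≫ (T F).d l (l + 1) -
        G3.sg (l - k) • ((T E).d k (k + 1) ≫ t E F g (k + 1) (l + 1))

theorem MM_mul {ι κ μ : Type} [Fintype κ] {p : ι → ℤ} {q : κ → ℤ} {r : μ → ℤ} {a b c : ℤ}
    {g : Matrix κ ι S6} {g' : Matrix μ κ S6} (hg' : g' ∈ MM q r b) (hg : g ∈ MM p q a)
    (h : a + b = c) : g' * g ∈ MM p r c := fun i l => by
  rw [Matrix.mul_apply]
  refine MvPolynomial.IsWeightedHomogeneous.sum _ _ _ fun j _ => ?_
  have := (hg' i j).mul (hg j l)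
  rwa [show b + q j - r i + (a + p l - q j) = c + p l - r i by rw [← h]; ring] at this

theorem MM_cast {ι κ : Type} {p : ι → ℤ} {q : κ → ℤ} {a b : ℤ} {g : Matrix κ ι S6}
    (hg : g ∈ MM p q a) (h : a = b) : g ∈ MM p q b := h ▸ hg

theorem MM_one {ι : Type} [DecidableEq ι] {p q : ι → ℤ} {a : ℤ} (h : ∀ i, q i = a + p i) :
    (1 : Matrix ι ι S6) ∈ MM p q a := fun i l => by
  rw [Matrix.one_apply]
  split_ifs with e
  · rw [e, h, sub_self]
    exact isWeightedHomogeneous_one _ _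
  · exact isWeightedHomogeneous_zero _ _ _

namespace DG

variable {W : S6} {𝒜 : Type u} [Category.{v} 𝒜] [Preadditive 𝒜] [Linear ℂ 𝒜] (D : DG W 𝒜)
  {E F G : HM W}

theorem t_add {g g' : Matrix F.ι E.ι S6} {k l : ℤ} (hg : g ∈ MM E.pz F.pz (3 * (l - k)))
    (hg' : g' ∈ MM E.pz F.pz (3 * (l - k))) :
    D.t E F (g + g') k l = D.t E F g k l + D.t E F g' k l := by
  have := D.lin E F g g' 1 k l hg hg'
  rwa [one_smul, one_smul] at this

theorem t_zero (k l : ℤ) : D.t E F 0 k l = 0 := by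
  have := D.t_add (E := E) (F := F) (k := k) (l := l) (zero_mem _) (zero_mem _)
  rw [add_zero] at this
  exact left_eq_add.1 this

theorem t_smul (c : ℂ) {g : Matrix F.ι E.ι S6} {k l : ℤ} (hg : g ∈ MM E.pz F.pz (3 * (l - k))) :
    D.t E F (c • g) k l = c • D.t E F g k l := by
  have := D.lin E F g 0 c k l hg (zero_mem _)
  rwa [add_zero, D.t_zero, add_zero] at this

/-- the cochain of a matrix -/
noncomputable def co (E F : HM W) (g : Matrix F.ι E.ι S6) (j : ℤ) : Cochain (D.T E) (D.T F) j :=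
  Cochain.mk fun k l _ => D.t E F g k l

theorem co_v (g : Matrix F.ι E.ι S6) (j k l : ℤ) (h : k + j = l) :
    (D.co E F g j).v k l h = D.t E F g k l := rfl

theorem δ_co {g : Matrix F.ι E.ι S6} {j j' : ℤ} (hj : j + 1 = j') (hg : g ∈ MM E.pz F.pz (3 * j)) :
    δ j j' (D.co E F g j) = D.co E F (F.dz * g - G3.sg j • (g * E.dz)) j' := by
  ext k r h
  obtain ⟨l, rfl⟩ : ∃ l, r = l + 1 := ⟨r - 1, by ring⟩
  obtain rfl : j = l - k := by omega
  rw [δ_v _ j' hj _ k (l + 1) h l (k + 1) (by ring) rfl, co_v, co_v, co_v, D.dif E F g k l hg,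
    ← hj, Int.negOnePow_succ, Units.neg_smul, ← sub_eq_add_neg]
  rfl

/-- the chain map of a closed map -/
noncomputable def hom (f : Matrix F.ι E.ι S6) (hf : f ∈ ZZ E.pz E.dz F.pz F.dz 0) :
    D.T E ⟶ D.T F where
  f k := D.t E F f k k
  comm' k l h := by
    obtain rfl : k + 1 = l := h
    have := D.dif E F f k k (MM_cast hf.1 (by ring))
    rw [sub_self, G3.sg_zero, one_smul, one_smul, hf.2, sub_self, D.t_zero] at this
    exact sub_eq_zero.1 this.symm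

theorem hom_f (f : Matrix F.ι E.ι S6) (hf : f ∈ ZZ E.pz E.dz F.pz F.dz 0) (k : ℤ) :
    (D.hom f hf).f k = D.t E F f k k := rfl

theorem ofHom_hom (f : Matrix F.ι E.ι S6) (hf : f ∈ ZZ E.pz E.dz F.pz F.dz 0) :
    Cochain.ofHom (D.hom f hf) = D.co E F f 0 :=
  Cochain.ext₀ _ _ fun k => by rw [Cochain.ofHom_v, co_v, hom_f]

theorem hom_one (E : HM W) : D.hom 1 (ZZ0_one E) = 𝟙 _ := by
  ext k
  exact D.one E k

theorem hom_mul {f : Matrix F.ι E.ι S6} (hf : f ∈ ZZ E.pz E.dz F.pz F.dz 0)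
    {g : Matrix G.ι F.ι S6} (hg : g ∈ ZZ F.pz F.dz G.pz G.dz 0) :
    D.hom (g * f) (ZZ0_mul hg hf) = D.hom f hf ≫ D.hom g hg := by
  ext k
  exact D.mul E F G f g k k k (MM_cast hf.1 (by ring)) (MM_cast hg.1 (by ring))

theorem hom_add {f g : Matrix F.ι E.ι S6} (hf : f ∈ ZZ E.pz E.dz F.pz F.dz 0)
    (hg : g ∈ ZZ E.pz E.dz F.pz F.dz 0) :
    D.hom (f + g) (add_mem hf hg) = D.hom f hf + D.hom g hg := by
  ext k
  exact D.t_add (MM_cast hf.1 (by ring)) (MM_cast hg.1 (by ring))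

theorem hom_smul (c : ℂ) {f : Matrix F.ι E.ι S6} (hf : f ∈ ZZ E.pz E.dz F.pz F.dz 0) :
    D.hom (c • f) (Submodule.smul_mem _ c hf) = c • D.hom f hf := by
  ext k
  exact D.t_smul c (MM_cast hf.1 (by ring))

theorem htpy {f g : Matrix F.ι E.ι S6} (hf : f ∈ ZZ E.pz E.dz F.pz F.dz 0)
    (hg : g ∈ ZZ E.pz E.dz F.pz F.dz 0) (h : f - g ∈ BB E.pz E.dz F.pz F.dz 0) :
    Nonempty (Homotopy (D.hom f hf) (D.hom g hg)) := by
  obtain ⟨s, hs, e⟩ := h
  have hs' : s ∈ MM E.pz F.pz (3 * -1) := hs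
  refine ⟨(Cochain.equivHomotopy _ _).symm ⟨D.co E F s (-1), ?_⟩⟩
  rw [D.δ_co (neg_add_cancel 1) hs', ofHom_hom, ofHom_hom,
    show G3.sg (-1) = -1 from rfl, neg_smul, one_smul, sub_neg_eq_add, ← e]
  refine Cochain.ext₀ _ _ fun k => ?_
  rw [Cochain.add_v, co_v, co_v, co_v,
    ← D.t_add (MM_cast (sub_mem hf.1 hg.1) (by ring)) (MM_cast hg.1 (by ring)), sub_add_cancel]

/-- the quotient functor -/
noncomputable abbrev q (𝒜 : Type u) [Category.{v} 𝒜] [Preadditive 𝒜] :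
    CochainComplex 𝒜 ℤ ⥤ HomotopyCategory 𝒜 (ComplexShape.up ℤ) := HomotopyCategory.quotient _ _

/-- the action on morphisms -/
noncomputable def mp (x : E ⟶ F) : (q 𝒜).obj (D.T E) ⟶ (q 𝒜).obj (D.T F) :=
  (q 𝒜).map (D.hom _ (exists_mkR x).choose_spec.choose)

theorem mp_mkR (f : Matrix F.ι E.ι S6) (hf : f ∈ ZZ E.pz E.dz F.pz F.dz 0) :
    D.mp (mkR f hf) = (q 𝒜).map (D.hom f hf) :=
  HomotopyCategory.eq_of_homotopy _ _ (D.htpy _ _ ((mkR_eq _ _).1
    (exists_mkR (mkR f hf)).choose_spec.choose_spec.symm)).some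

/-- the functor to the homotopy category -/
noncomputable def fn : HM W ⥤ HomotopyCategory 𝒜 (ComplexShape.up ℤ) where
  obj E := (q 𝒜).obj (D.T E)
  map x := D.mp x
  map_id E := by rw [← mkR_one, mp_mkR, hom_one, CategoryTheory.Functor.map_id]
  map_comp x y := by
    obtain ⟨f, hf, rfl⟩ := exists_mkR x
    obtain ⟨g, hg, rfl⟩ := exists_mkR y
    rw [mkR_comp, mp_mkR, mp_mkR, mp_mkR, hom_mul, Functor.map_comp]

theorem fn_obj (E : HM W) : D.fn.obj E = (q 𝒜).obj (D.T E) := rfl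

theorem fn_map (f : Matrix F.ι E.ι S6) (hf : f ∈ ZZ E.pz E.dz F.pz F.dz 0) :
    D.fn.map (mkR f hf) = (q 𝒜).map (D.hom f hf) := D.mp_mkR f hf

instance : D.fn.Additive where
  map_add {E F x y} := by
    obtain ⟨f, hf, rfl⟩ := exists_mkR x
    obtain ⟨g, hg, rfl⟩ := exists_mkR y
    rw [mkR_add, fn_map, fn_map, fn_map, hom_add]
    exact (q 𝒜).map_add

instance : D.fn.Linear ℂ where
  map_smul {E F} x c := by
    obtain ⟨f, hf, rfl⟩ := exists_mkR x
    rw [mkR_smul, fn_map, fn_map, hom_smul]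
    exact (q 𝒜).map_smul _ _

/-- the image under a linear functor -/
noncomputable def map {ℬ : Type u'} [Category.{v'} ℬ] [Preadditive ℬ] [Linear ℂ ℬ] (π : 𝒜 ⥤ ℬ)
    [π.Additive] [π.Linear ℂ] : DG W ℬ where
  T E := (π.mapHomologicalComplex _).obj (D.T E)
  t E F g k l := π.map (D.t E F g k l)
  lin E F g g' c k l hg hg' := by rw [D.lin E F g g' c k l hg hg', π.map_add, π.map_smul]; rfl
  one E k := by rw [D.one, π.map_id]; rfl
  mul E F G g g' k l r hg hg' := by rw [D.mul E F G g g' k l r hg hg', π.map_comp]; rfl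
  dif E F g k l hg := by
    rw [D.dif E F g k l hg, π.map_sub, π.map_zsmul, π.map_comp, π.map_comp]
    rfl

end DG

/-- the case where the differential is given by the matrix factorization itself -/
noncomputable def DG.ofMod {W : S6} {𝒜 : Type u} [Category.{v} 𝒜] [Preadditive 𝒜] [Linear ℂ 𝒜]
    (T : HM W → CochainComplex 𝒜 ℤ)
    (t : ∀ (E F : HM W), Matrix F.ι E.ι S6 → ∀ k l : ℤ, ((T E).X k ⟶ (T F).X l))
    (lin : ∀ (E F : HM W) (g g' : Matrix F.ι E.ι S6) (c : ℂ) (k l : ℤ),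
      g ∈ MM E.pz F.pz (3 * (l - k)) → g' ∈ MM E.pz F.pz (3 * (l - k)) →
      t E F (c • g + g') k l = c • t E F g k l + t E F g' k l)
    (one : ∀ (E : HM W) (k : ℤ), t E E 1 k k = 𝟙 _)
    (mul : ∀ (E F G : HM W) (g : Matrix F.ι E.ι S6) (g' : Matrix G.ι F.ι S6) (k l r : ℤ),
      g ∈ MM E.pz F.pz (3 * (l - k)) → g' ∈ MM F.pz G.pz (3 * (r - l)) →
      t E G (g' * g) k r = t E F g k l ≫ t F G g' l r)
    (dd : ∀ (E : HM W) (k : ℤ), (T E).d k (k + 1) = t E E E.dz k (k + 1)) : DG W 𝒜 where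
  T := T
  t := t
  lin := lin
  one := one
  mul := mul
  dif E F g k l hg := by
    have h1 : F.dz ∈ MM F.pz F.pz (3 * (l + 1 - l)) := MM_cast F.isMF.deg (by ring)
    have h2 : E.dz ∈ MM E.pz E.pz (3 * (k + 1 - k)) := MM_cast E.isMF.deg (by ring)
    have h3 : g ∈ MM E.pz F.pz (3 * (l + 1 - (k + 1))) := MM_cast hg (by ring)
    have := lin E F (g * E.dz) (F.dz * g) (-(G3.sg (l - k) : ℂ)) k (l + 1)
      (MM_mul h3 h2 (by ring)) (MM_mul h1 hg (by ring))
    rw [neg_smul, neg_smul, Int.cast_smul_eq_zsmul, Int.cast_smul_eq_zsmul, neg_add_eq_sub,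
      neg_add_eq_sub] at this
    rw [this, dd, dd, mul E F F g F.dz k l (l + 1) hg h1, mul E E F E.dz g k (k + 1) (l + 1) h2 h3]

end Vale.Agent.P287T.Zg
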