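import Vale.Agent.P287T.Zg.Tri
import Vale.Agent.P287Z.T3.Shim

/-!
# Orlov's functor as an exact functor on `HM W`
-/

open CategoryTheory Limits MvPolynomial

universe w

namespace Vale.Agent.P287T.Zg

open Vale.Agent.P287T.Cy Vale.Agent.P287T.G3 Vale.Agent.P287Z Vale.Agent.P287Z.O
  Vale.Agent.P287Z.O.L Vale.Agent.P287Z.O.H962

section

variable {W : S6} {E F G : HM W}

/-- a matrix in the numbered bases -/
noncomputable def nb (g : Matrix F.ι E.ι S6) :
    Matrix (Fin (Fintype.card F.ι)) (Fin (Fintype.card E.ι)) S6 :=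
  g.submatrix (Fintype.equivFin F.ι).symm (Fintype.equivFin E.ι).symm

theorem nb_mul (g : Matrix F.ι E.ι S6) (g' : Matrix G.ι F.ι S6) : nb (g' * g) = nb g' * nb g :=
  (Matrix.submatrix_mul_equiv g' g _ _ _).symm

theorem nb_one : nb (1 : Matrix E.ι E.ι S6) = 1 := Matrix.submatrix_one_equiv _

theorem nb_surj (f : Matrix (Fin (Fintype.card F.ι)) (Fin (Fintype.card E.ι)) S6) :
    ∃ g : Matrix F.ι E.ι S6, nb g = f :=
  ⟨f.submatrix (Fintype.equivFin F.ι) (Fintype.equivFin E.ι), by ext i j; simp [nb]⟩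

theorem nb_inj {g g' : Matrix F.ι E.ι S6} (h : nb g = nb g') : g = g' := by
  ext i j : 1
  simpa [nb] using congrFun (congrFun h (Fintype.equivFin F.ι i)) (Fintype.equivFin E.ι j)

theorem nb_mem {g : Matrix F.ι E.ι S6} {a : ℤ} : g ∈ MM E.pz F.pz a ↔
    nb g ∈ MM (toGMF E).p (toGMF F).p a :=
  ⟨fun h _ _ => h _ _, fun h i j => by
    simpa [nb, toGMF] using h (Fintype.equivFin F.ι i) (Fintype.equivFin E.ι j)⟩

theorem hgT_nb {g : Matrix F.ι E.ι S6} {k l : ℤ} (h : g ∈ MM E.pz F.pz (3 * (l - k))) :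
    HgT (toGMF E) (toGMF F) k l (nb g) := fun i j => by
  have := nb_mem.1 h i j
  rwa [mul_sub] at this

theorem cl_nb {g : Matrix F.ι E.ι S6} :
    g ∈ ZZ E.pz E.dz F.pz F.dz 0 ↔ V.Cl (toGMF E) (toGMF F) (nb g) := by
  refine and_congr (nb_mem.trans (forall₂_congr fun i j => by rw [zero_add])) ⟨fun h => ?_, fun h => ?_⟩
  · exact (nb_mul g F.dz).symm.trans ((congrArg nb h).trans (nb_mul E.dz g))
  · exact nb_inj ((nb_mul g F.dz).trans (h.trans (nb_mul E.dz g).symm))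

theorem bb_of_nh {g : Matrix F.ι E.ι S6} (h : V.Nh (toGMF E) (toGMF F) (nb g)) :
    g ∈ BB E.pz E.dz F.pz F.dz 0 := by
  obtain ⟨s, hs, e⟩ := h
  obtain ⟨s, rfl⟩ := nb_surj s
  refine ⟨s, (nb_mem (a := 0 - 3)).2 fun i j => ?_, nb_inj (e.trans ?_)⟩
  · rw [show 0 - 3 + (toGMF E).p j - (toGMF F).p i = (toGMF E).p j - (toGMF F).p i - 3 by ring]
    exact hs i j
  · exact (congrArg₂ (· + ·) (nb_mul s F.dz) (nb_mul E.dz s)).symm

variable [FrOK W] (P : ℤ → Prop) [DecidablePred P] [Cvx P]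

theorem mX_smul {m n : ℕ} {X : V.GMF W m} {Y : V.GMF W n} {k l : ℤ} (c : ℂ)
    {f : Matrix (Fin n) (Fin m) S6} (hf : HgT X Y k l f) (h : HgT X Y k l (c • f)) :
    mX P (c • f) h = c • mX P f hf := by
  refine Eq.trans ?_ (matA_smul W c _ (hf.mask P) fun i j => hga_smul c (hf.mask P i j))
  change matA W _ _ = _
  congr 1
  ext1 i j
  rw [Matrix.smul_apply]
  unfold mask
  split_ifs
  · rfl
  · rw [smul_zero]

open Classical in
/-- the action of matrices on the terms of the windows -/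
noncomputable def wt (E F : HM W) (g : Matrix F.ι E.ι S6) (k l : ℤ) :
    (L.T (toGMF E) P).X k ⟶ (L.T (toGMF F) P).X l :=
  if h : g ∈ MM E.pz F.pz (3 * (l - k)) then mX P (nb g) (hgT_nb h) else 0

theorem wt_eq {g : Matrix F.ι E.ι S6} {k l : ℤ} (h : g ∈ MM E.pz F.pz (3 * (l - k))) :
    wt P E F g k l = mX P (nb g) (hgT_nb h) := dif_pos h

variable (W) in
/-- the window `P` of the periodic complex of free graded modules over `ℂ[x] / W` -/
noncomputable def win : DG W (GA W) :=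
  DG.ofMod (fun E => L.T (toGMF E) P) (wt P)
    (fun E F g g' c k l h h' => by
      have hc := Submodule.smul_mem _ c h
      rw [wt_eq P (add_mem hc h'), wt_eq P h, wt_eq P h', ← mX_smul P c (hgT_nb h) (hgT_nb hc)]
      exact mX_add P (hgT_nb hc) (hgT_nb h'))
    (fun E k => by
      rw [wt_eq P (MM_one fun i => by ring), ← mX_one P]
      exact mX_congr P nb_one _ _)
    (fun E F G g g' k l r h h' => by
      rw [wt_eq P h, wt_eq P h', wt_eq P (MM_mul h' h (by ring)), mX_comp]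
      exact mX_congr P (nb_mul g g') _ _)
    (fun E k => by
      rw [wt_eq P (MM_cast E.isMF.deg (by ring)), T_dX P _ _ _ rfl]
      rfl)

theorem win_hom {f : Matrix F.ι E.ι S6} (hf : f ∈ ZZ E.pz E.dz F.pz F.dz 0) :
    (win W P).hom f hf = Tf (cl_nb.1 hf) P := by
  ext k : 1
  exact wt_eq P (MM_cast hf.1 (by ring))

end

section

variable (W : S6) [FrOK W]

/-- Orlov's functor to the Serre quotient -/
noncomputable def orq : HM W ⥤ DerivedCategory (L.Coh W) :=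
  ((win W (· ≤ 2 * 0)).map (piA W)).fd

variable {W} {E F : HM W}

theorem orq_obj (E : HM W) : (orq W).obj E = FD (toGMF E) := rfl

theorem orq_map {f : Matrix F.ι E.ι S6} (hf : f ∈ ZZ E.pz E.dz F.pz F.dz 0) :
    (orq W).map (mkR f hf) = FDmap (cl_nb.1 hf) :=
  (DG.fd_map _ f hf).trans (congrArg (QPi W).map (win_hom (· ≤ 2 * 0) hf))

noncomputable instance : (orq W).CommShift ℤ :=
  inferInstanceAs (((win W (· ≤ 2 * 0)).map (piA W)).fd.CommShift ℤ)

instance : (orq W).IsTriangulated :=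
  inferInstanceAs ((win W (· ≤ 2 * 0)).map (piA W)).fd.IsTriangulated

instance : (orq W).Linear ℂ := inferInstanceAs (((win W (· ≤ 2 * 0)).map (piA W)).fd.Linear ℂ)

theorem orq_full (hW : W.IsHomogeneous 3) (h0 : W ≠ 0) : (orq W).Full where
  map_surjective {E F} x := by
    obtain ⟨f, hf, e⟩ := N.fullSt' hW h0 (toGMF E) (toGMF F) x
    obtain ⟨f, rfl⟩ := nb_surj f
    exact ⟨mkR f (cl_nb.2 hf), (orq_map _).trans e⟩

theorem orq_faithful (hW : W.IsHomogeneous 3) (h0 : W ≠ 0) : (orq W).Faithful where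
  map_injective {E F x y} h := by
    rw [← sub_eq_zero, ← Functor.map_sub] at h
    rw [← sub_eq_zero]
    obtain ⟨f, hf, e⟩ := exists_mkR (x - y)
    rw [e] at h ⊢
    exact (mkR_eq_zero hf).2 (bb_of_nh ((N.faithSt' hW h0 _ _ _ (cl_nb.1 hf)).1
      ((orq_map hf).symm.trans h)))

theorem fd_perm {m n : ℕ} (X : V.GMF W m) (Y : V.GMF W n) (e : Fin n ≃ Fin m)
    (hp : ∀ i, Y.p i = X.p (e i)) (hd : Y.d = X.d.submatrix e e) : Nonempty (FD Y ≅ FD X) := by
  have a : V.Cl Y X ((1 : Matrix (Fin m) (Fin m) S6).submatrix id e) :=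
    ⟨fun i j => by rw [hp]; exact hgM_one X.p i (e j), by
      rw [hd, Matrix.submatrix_mul_equiv, Matrix.one_mul]
      exact (Matrix.submatrix_mul_equiv X.d 1 id (Equiv.refl _) e).trans (by rw [Matrix.mul_one])⟩
  have b : V.Cl X Y ((1 : Matrix (Fin m) (Fin m) S6).submatrix e id) :=
    ⟨fun i j => by rw [hp]; exact hgM_one X.p (e i) j, by
      rw [hd, Matrix.submatrix_mul_equiv, Matrix.mul_one]
      exact ((Matrix.submatrix_mul_equiv 1 X.d e (Equiv.refl _) id).trans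
        (by rw [Matrix.one_mul])).symm⟩
  have k : ∀ {m n : ℕ} {X : V.GMF W m} {Y : V.GMF W n} {f g} (hf : V.Cl X Y f) (hg : V.Cl Y X g),
      g * f = 1 → FDmap hf ≫ FDmap hg = 𝟙 _ := fun {_ _ X _ _ _} hf hg h => by
    have c : V.Cl X X 1 := ⟨hgM_one X.p, by rw [Matrix.mul_one, Matrix.one_mul]⟩
    rw [← FDmap_comp hf hg (h ▸ c), ← FDmap_one X c]
    congr 1
  refine ⟨⟨FDmap a, FDmap b, k a b ?_, k b a ?_⟩⟩
  · exact (Matrix.submatrix_mul_equiv _ _ _ (Equiv.refl _) _).trans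
      (by rw [Matrix.one_mul, Matrix.submatrix_one_equiv])
  · rw [Matrix.submatrix_mul_equiv, Matrix.one_mul, Matrix.submatrix_id_id]

theorem fd_toGMF {n : ℕ} (X : V.GMF W n) : Nonempty (FD (toGMF (ofGMF X)) ≅ FD X) :=
  fd_perm X _ (Fintype.equivFin (Fin n)).symm (fun _ => rfl) rfl

theorem fd_bdd (hA : AcySt W) {n : ℕ} (X : V.GMF W n) :
    (DerivedCategory.TStructure.t (C := L.Coh W)).bounded (FD X) := by
  have a : CochainComplex.IsStrictlyGE
      (((piA W).mapHomologicalComplex (ComplexShape.up ℤ)).obj (TL X 0)) (-bd X 0) := by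
    have := TL_ge X 0
    infer_instance
  have b : CochainComplex.IsStrictlyLE
      (((piA W).mapHomologicalComplex (ComplexShape.up ℤ)).obj (TG X 0)) (bd X 0) := by
    have := TG_le X 0
    infer_instance
  have h2 : (DerivedCategory.TStructure.t (C := L.Coh W)).IsLE ((QPi W).obj (TG X 0)) (bd X 0) :=
    (inferInstance : (DerivedCategory.Q.obj
      (((piA W).mapHomologicalComplex (ComplexShape.up ℤ)).obj (TG X 0))).IsLE _)
  refine ⟨⟨-bd X 0, (inferInstance : (DerivedCategory.Q.obj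
    (((piA W).mapHomologicalComplex (ComplexShape.up ℤ)).obj (TL X 0))).IsGE _)⟩, ⟨bd X 0 + 1, ?_⟩⟩
  have h3 := (DerivedCategory.TStructure.t (C := L.Coh W)).isLE_shift
    ((QPi W).obj (TG X 0)) (bd X 0) (-1) (bd X 0 + 1) (by ring)
  exact (DerivedCategory.TStructure.t (C := L.Coh W)).isLE_of_iso (fdIso hA X).symm _

end

theorem orth_iso {C : Type*} [Category* C] [Preadditive C] [HasShift C ℤ] {B Y Y' : C} (e : Y ≅ Y')
    {k : ℤ} (h : ∀ g : B ⟶ Y'⟦k⟧, g = 0) (f : B ⟶ Y⟦k⟧) : f = 0 :=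
  zero_of_comp_mono ((shiftFunctor C k).mapIso e).hom (h _)

theorem orth_map {C D : Type*} [Category* C] [Category* D] [Preadditive C] [Preadditive D]
    [HasShift C ℤ] [HasShift D ℤ] (G : C ⥤ D) [G.Additive] [G.Full] [G.CommShift ℤ] {A Y : C} {B : D}
    (i : G.obj A ≅ B) {k : ℤ} (h : ∀ g : A ⟶ Y⟦k⟧, g = 0) (f : B ⟶ (G.obj Y)⟦k⟧) : f = 0 := by
  let e : G.obj (Y⟦k⟧) ≅ (G.obj Y)⟦k⟧ := (G.commShiftIso k).app Y
  obtain ⟨g, hg⟩ := G.map_surjective (i.hom ≫ f ≫ e.inv)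
  rw [h g, Functor.map_zero] at hg
  exact zero_of_comp_mono e.inv (zero_of_epi_comp i.hom hg.symm)

section

variable (W : MvPolynomial (Fin 6) ℂ) [hW : Fact (W.IsHomogeneous 3)]
  [HasDerivedCategory.{w} (P294Z.Coh (PI (Ideal.span {W})))]

/-- **Orlov's functor** -/
noncomputable def orl : HM W ⥤ DerivedCategory (P294Z.Coh (PI (Ideal.span {W}))) :=
  orq W ⋙ T3.DW W

noncomputable instance : (orl W).CommShift ℤ := inferInstanceAs ((orq W ⋙ T3.DW W).CommShift ℤ)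

instance : (orl W).IsTriangulated := inferInstanceAs (orq W ⋙ T3.DW W).IsTriangulated

instance : (orl W).Linear ℂ := inferInstanceAs ((orq W ⋙ T3.DW W).Linear ℂ)

variable {W}

theorem orl_full (h0 : W ≠ 0) : (orl W).Full :=
  have := orq_full hW.out h0
  inferInstanceAs (orq W ⋙ T3.DW W).Full

theorem orl_faithful (h0 : W ≠ 0) : (orl W).Faithful :=
  have := orq_faithful hW.out h0
  inferInstanceAs (orq W ⋙ T3.DW W).Faithful

theorem orl_obj (E : HM W) : (orl W).obj E = (T3.DW W).obj (FD (toGMF E)) :=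
  congrArg (T3.DW W).obj (orq_obj E)

theorem orl_bdd (h0 : W ≠ 0) (E : HM W) :
    (DerivedCategory.TStructure.t (C := P294Z.Coh (PI (Ideal.span {W})))).bounded
      ((orl W).obj E) := by
  rw [orl_obj]
  exact H599.DE_bounded _ _ _ (fd_bdd (acySt (hg_ten_of_isHomogeneous W hW.out) h0) (toGMF E))

theorem dw_ku (h0 : W ≠ 0) {n : ℕ} (X : V.GMF W n) (a : ℤ) (h1 : 0 ≤ a) (h2 : a ≤ 2) (k : ℤ)
    (f : (DerivedCategory.singleFunctor _ 0).obj (Oc (Ideal.span {W}) a) ⟶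
      ((T3.DW W).obj (FD X))⟦k⟧) : f = 0 := by
  obtain ⟨i⟩ := T3.dw_od W a
  have h : N.Ku W (FD X) := N.ku_FD hW.out h0 X
  exact orth_map (T3.DW W) (A := OD W a) (Y := FD X) i (h a h1 h2 k) f

theorem orl_ku (h0 : W ≠ 0) (E : HM W) (a : ℤ) (h1 : 0 ≤ a) (h2 : a ≤ 2) (k : ℤ)
    (f : (DerivedCategory.singleFunctor _ 0).obj (Oc (Ideal.span {W}) a) ⟶ ((orl W).obj E)⟦k⟧) :
    f = 0 :=
  orth_iso (eqToIso (orl_obj E)) (dw_ku h0 (toGMF E) a h1 h2 k) f

theorem orl_ess (h0 : W ≠ 0) (Y : DbP (Ideal.span {W})) (hY : Ku _ Y) :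
    ∃ E : HM W, Nonempty ((orl W).obj E ≅ Y.obj) := by
  obtain ⟨n, X, ⟨e⟩⟩ := T3.exists_gmf W h0 Y hY
  obtain ⟨j⟩ := fd_toGMF X
  exact ⟨ofGMF X, ⟨eqToIso (orl_obj _) ≪≫ (T3.DW W).mapIso j ≪≫ e⟩⟩

end

end Vale.Agent.P287T.Zg
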